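import Vale.Agent.P318.Defs

namespace Vale.Agent.P318

open Finset

/-- [COUNT] Count.lean -/
theorem count {m : ℕ} [NeZero m] (a b : ZMod m) :
    #{u : ZMod m | (a + u).val < m / 2 ∧ ¬ (b + u).val < m / 2} = circ (a - b) := by
  have hr : (a - b).val < m := ZMod.val_lt _
  have hval : ∀ u : ZMod m, (a + u).val = ((b + u).val + (a - b).val) % m := by
    intro u
    rw [← ZMod.val_add]
    congr 1
    ring
  have hmod : ∀ v r : ℕ, v < m → r < m → (v + r < m ∧ (v + r) % m = v + r) ∨
      (m ≤ v + r ∧ (v + r) % m = v + r - m) := by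
    intro v r hv hr
    rcases lt_or_ge (v + r) m with h | h
    · exact Or.inl ⟨h, Nat.mod_eq_of_lt h⟩
    · refine Or.inr ⟨h, ?_⟩
      rw [Nat.mod_eq_sub_mod h, Nat.mod_eq_of_lt (by omega)]
  have hcard : #{u : ZMod m | (a + u).val < m / 2 ∧ ¬ (b + u).val < m / 2} =
      #(Finset.Ico (max (m / 2) (m - (a - b).val)) (min m (m / 2 + m - (a - b).val))) := by
    refine Finset.card_nbij' (fun u => (b + u).val) (fun n => (n : ZMod m) - b) ?_ ?_ ?_ ?_
    · intro u hu
      have hu' : (a + u).val < m / 2 ∧ ¬ (b + u).val < m / 2 := by simpa using hu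
      rw [hval] at hu'
      have hv : (b + u).val < m := ZMod.val_lt _
      have := hmod (b + u).val (a - b).val hv hr
      simp only [Finset.coe_Ico, Set.mem_Ico]
      omega
    · intro n hn
      simp only [Finset.coe_Ico, Set.mem_Ico] at hn
      have hn' : n < m := by omega
      have h1 : (b + ((n : ZMod m) - b)).val = n := by
        rw [add_sub_cancel, ZMod.val_natCast_of_lt hn']
      have h2 := hval ((n : ZMod m) - b)
      rw [h1] at h2
      have h3 := hmod n (a - b).val hn' hr
      have h4 : (a + ((n : ZMod m) - b)).val < m / 2 ∧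
          ¬ (b + ((n : ZMod m) - b)).val < m / 2 := by
        rw [h1, h2]
        omega
      simpa using h4
    · intro u _
      simp only [ZMod.natCast_val, ZMod.cast_id', id_eq]
      ring
    · intro n hn
      simp only [Finset.coe_Ico, Set.mem_Ico] at hn
      have hn' : n < m := by omega
      simp only [add_sub_cancel]
      exact ZMod.val_natCast_of_lt hn'
  rw [hcard, Nat.card_Ico]
  unfold circ
  omega

end Vale.Agent.P318
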