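import Vale.Agent.P318.Final

/-!
P318: the loss is already achieved by the half-circle cuts of homomorphisms to `ZMod m`.
-/

namespace Vale.Agent.P318

open Finset

/-- The half-circle cut given by a map to `ZMod m` and a rotation. -/
def half {G : Type} [Fintype G] {m : ℕ} (k : G → ZMod m) (u : ZMod m) : Finset G :=
  univ.filter (fun i => (k i + u).val < m / 2)

namespace Ch

open Mn

section general

variable {V : Type} [Fintype V] [DecidableEq V]

theorem r_le {c : V → V → ℝ} (h0 : ∀ i j, 0 ≤ c i j) (S : Finset V) {r : ℝ}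
    (hr : S.Nonempty → Sᶜ.Nonempty → r ≤ cutRatio c S) :
    r * ∑ i, ∑ j, (if i ∈ S ∧ j ∉ S then (1 : ℝ) else 0) ≤
      ∑ i, ∑ j, c i j * (if i ∈ S ∧ j ∉ S then (1 : ℝ) else 0) := by
  have h1 : ∀ f : V → V → ℝ, ∑ i, ∑ j, f i j * (if i ∈ S ∧ j ∉ S then (1 : ℝ) else 0) =
      ∑ i ∈ S, ∑ j ∈ Sᶜ, f i j := by
    intro f
    rw [← Finset.sum_filter_add_sum_filter_not univ (fun i => i ∈ S)
      (fun i => ∑ j, f i j * (if i ∈ S ∧ j ∉ S then (1 : ℝ) else 0))]
    have h2 : ∑ i ∈ univ.filter (fun i => ¬ i ∈ S),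
        ∑ j, f i j * (if i ∈ S ∧ j ∉ S then (1 : ℝ) else 0) = 0 := by
      refine sum_eq_zero fun i hi => sum_eq_zero fun j _ => ?_
      rw [if_neg (fun h => (mem_filter.1 hi).2 h.1), mul_zero]
    rw [h2, add_zero]
    have h3 : univ.filter (fun i => i ∈ S) = S := by ext; simp
    rw [h3]
    refine sum_congr rfl fun i hi => ?_
    rw [← Finset.sum_filter_add_sum_filter_not univ (fun j => j ∉ S)
      (fun j => f i j * (if i ∈ S ∧ j ∉ S then (1 : ℝ) else 0))]
    have h4 : ∑ j ∈ univ.filter (fun j => ¬ j ∉ S),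
        f i j * (if i ∈ S ∧ j ∉ S then (1 : ℝ) else 0) = 0 := by
      refine sum_eq_zero fun j hj => ?_
      rw [if_neg (fun h => (mem_filter.1 hj).2 h.2), mul_zero]
    rw [h4, add_zero]
    have h5 : univ.filter (fun j => j ∉ S) = Sᶜ := by ext; simp
    rw [h5]
    refine sum_congr rfl fun j hj => ?_
    rw [if_pos ⟨hi, mem_compl.1 hj⟩, mul_one]
  have h2 := h1 (fun _ _ => 1)
  simp only [one_mul] at h2
  rw [h2, h1 c]
  simp only [sum_const, nsmul_eq_mul, mul_one]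
  by_cases hS : S.Nonempty ∧ Sᶜ.Nonempty
  · obtain ⟨hS1, hS2⟩ := hS
    have h3 := hr hS1 hS2
    have h4 : (0 : ℝ) < (#S : ℝ) * (#Sᶜ : ℝ) := by
      have := hS1.card_pos
      have := hS2.card_pos
      positivity
    rw [cutRatio, le_div_iff₀ h4] at h3
    exact h3
  · have h3 : (#S : ℝ) * (#Sᶜ : ℝ) = 0 := by
      rw [not_and_or, Finset.not_nonempty_iff_eq_empty, Finset.not_nonempty_iff_eq_empty] at hS
      rcases hS with h | h
      · rw [h]; simp
      · rw [h]; simp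
    rw [h3, mul_zero]
    exact sum_nonneg fun _ _ => sum_nonneg fun _ _ => h0 _ _

theorem rcirc {c : V → V → ℝ} (h0 : ∀ i j, 0 ≤ c i j) {m : ℕ} [NeZero m] (k : V → ZMod m)
    {r : ℝ} (hr : ∀ u : ZMod m, (half k u).Nonempty → (half k u)ᶜ.Nonempty →
      r ≤ cutRatio c (half k u)) :
    r * ∑ i, ∑ j, (circ (k i - k j) : ℝ) ≤ ∑ i, ∑ j, c i j * (circ (k i - k j) : ℝ) := by
  have h1 : ∀ i j, (circ (k i - k j) : ℝ) = ∑ u : ZMod m,
      (if i ∈ half k u ∧ j ∉ half k u then (1 : ℝ) else 0) := by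
    intro i j
    rw [← count (k i) (k j), Finset.card_filter]
    push_cast
    refine sum_congr rfl fun u _ => ?_
    simp only [half, mem_filter, mem_univ, true_and]
  have h2 := sum_le_sum fun (u : ZMod m) (_ : u ∈ univ) => r_le h0 (half k u) (hr u)
  rw [← mul_sum] at h2
  have h3 : ∀ f : V → V → ℝ, ∑ i, ∑ j, f i j * (circ (k i - k j) : ℝ) =
      ∑ u : ZMod m, ∑ i, ∑ j, f i j * (if i ∈ half k u ∧ j ∉ half k u then (1 : ℝ) else 0) := by
    intro f
    symm
    rw [sum_comm]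
    refine sum_congr rfl fun i _ => ?_
    rw [sum_comm]
    refine sum_congr rfl fun j _ => ?_
    rw [h1, mul_sum]
  have h4 := h3 (fun _ _ => 1)
  simp only [one_mul] at h4
  rw [h4, h3 c]
  exact h2

theorem lift2 {G : Type} [AddCommGroup G] [Fintype G] {m : ℕ} [NeZero m]
    (hm : ∀ g : G, m • g = 0) (χ : AddChar G ℂ) :
    ∃ k : G →+ ZMod m, ∀ g, χ g = ZMod.stdAddChar (k g) := by
  obtain ⟨k, hk1, hk2⟩ := lift hm χ
  exact ⟨AddMonoidHom.ofMapSub k hk2, hk1⟩

theorem r_le_of [Nontrivial V] {c : V → V → ℝ} {K r : ℝ} (hK : 0 < K)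
    (H : ∀ d : V → V → ℝ, NegType d → r * ∑ i, ∑ j, d i j ≤ K * ∑ i, ∑ j, c i j * d i j) :
    r ≤ K * glVal c := by
  have h1 : r / K ≤ glVal c := by
    refine le_csInf ?_ ?_
    · obtain ⟨d, h1, h2⟩ := Fin0.feasible V
      exact ⟨_, d, h1, h2, rfl⟩
    · rintro s ⟨d, h1, h2, rfl⟩
      have h3 := H d h1
      have h4 : ∑ i, ∑ j, d i j = 2 := by linarith
      rw [h4] at h3
      rw [div_le_iff₀ hK]
      linarith
  rw [div_le_iff₀ hK] at h1
  linarith

omit [DecidableEq V] in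
theorem gl_nonneg {c : V → V → ℝ} (h0 : ∀ i j, 0 ≤ c i j) : 0 ≤ glVal c := by
  apply Real.sInf_nonneg
  rintro r ⟨d, ⟨⟨x, hx⟩, -⟩, -, rfl⟩
  refine div_nonneg (sum_nonneg fun i _ => sum_nonneg fun j _ => mul_nonneg (h0 i j) ?_)
    (by norm_num)
  rw [hx]
  positivity

theorem gap_min {ι : Type} [Finite ι] (P : ι → Prop) (f : ι → ℝ) (a : ℝ)
    (h : ∀ i, P i → a < f i) : ∃ r, a < r ∧ ∀ i, P i → r ≤ f i := by
  classical
  have := Fintype.ofFinite ι
  set s : Finset ℝ := insert (a + 1) ((univ.filter P).image f) with hs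
  have hne : s.Nonempty := ⟨a + 1, by simp [hs]⟩
  refine ⟨s.min' hne, ?_, fun i hi => ?_⟩
  · rw [Finset.lt_min'_iff]
    intro y hy
    rw [hs, mem_insert, mem_image] at hy
    rcases hy with rfl | ⟨i, hi, rfl⟩
    · linarith
    · exact h i (mem_filter.1 hi).2
  · exact Finset.min'_le _ _ (by
      rw [hs, mem_insert, mem_image]
      exact Or.inr ⟨i, mem_filter.2 ⟨mem_univ _, hi⟩, rfl⟩)

end general

section group

variable {G : Type} [AddCommGroup G] [Fintype G] [DecidableEq G]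

/-- the cuts given by a family of homomorphisms to `ZMod m` -/
theorem cuts {c : G → G → ℝ} (h0 : ∀ i j, 0 ≤ c i j)
    (hc : ∀ t i j, c (i + t) (j + t) = c i j) {m : ℕ} [NeZero m] {ι : Type} [Fintype ι]
    (B : ι → ℝ) (hB0 : ∀ χ, 0 ≤ B χ) (k : ι → G →+ ZMod m) {r : ℝ}
    (H : ∀ (k : G →+ ZMod m) (u : ZMod m), (half k u).Nonempty → (half k u)ᶜ.Nonempty →
      r ≤ cutRatio c (half k u)) :
    r * ∑ g, ∑ χ, B χ * (circ (k χ g) : ℝ) ≤
      ∑ g, c g 0 * ∑ χ, B χ * (circ (k χ g) : ℝ) := by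
  have hn : (0 : ℝ) < Fintype.card G := by
    have : 0 < Fintype.card G := Fintype.card_pos
    exact_mod_cast this
  have h1 : ∀ χ : ι, r * ∑ g, (circ (k χ g) : ℝ) ≤
      ∑ g, c g 0 * (circ (k χ g) : ℝ) := by
    intro χ
    have h2 := rcirc h0 (k χ) (H (k χ))
    simp only [← map_sub] at h2
    rw [sum_c' hc (fun g => (circ (k χ g) : ℝ))] at h2
    have h3 := sum_c' (c := fun _ _ => (1 : ℝ)) (fun _ _ _ => rfl)
      (fun g : G => (circ (k χ g) : ℝ))
    simp only [one_mul] at h3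
    rw [h3] at h2
    have h4 : (Fintype.card G : ℝ) * (r * ∑ g, (circ (k χ g) : ℝ)) ≤
        (Fintype.card G : ℝ) * ∑ g, c g 0 * (circ (k χ g) : ℝ) := by linarith
    exact le_of_mul_le_mul_left h4 hn
  have h2 : ∑ χ : ι, B χ * (r * ∑ g, (circ (k χ g) : ℝ)) ≤
      ∑ χ : ι, B χ * ∑ g, c g 0 * (circ (k χ g) : ℝ) :=
    sum_le_sum fun χ _ => mul_le_mul_of_nonneg_left (h1 χ) (hB0 χ)
  have h3 : r * ∑ g, ∑ χ, B χ * (circ (k χ g) : ℝ) =
      ∑ χ : ι, B χ * (r * ∑ g, (circ (k χ g) : ℝ)) := by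
    simp only [mul_sum]
    rw [sum_comm]
    refine sum_congr rfl fun χ _ => sum_congr rfl fun g _ => ?_
    ring
  have h4 : ∑ g, c g 0 * ∑ χ, B χ * (circ (k χ g) : ℝ) =
      ∑ χ : ι, B χ * ∑ g, c g 0 * (circ (k χ g) : ℝ) := by
    simp only [mul_sum]
    rw [sum_comm]
    refine sum_congr rfl fun χ _ => sum_congr rfl fun g _ => ?_
    ring
  rw [h3, h4]
  exact h2

theorem main {c : G → G → ℝ} {r : ℝ} (hr0 : 0 ≤ r) (h0 : ∀ i j, 0 ≤ c i j)
    (hc : ∀ t i j, c (i + t) (j + t) = c i j) {m : ℕ} [NeZero m] (hm : ∀ g : G, m • g = 0)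
    (H : ∀ (k : G →+ ZMod m) (u : ZMod m), (half k u).Nonempty → (half k u)ᶜ.Nonempty →
      r ≤ cutRatio c (half k u))
    {d : G → G → ℝ} (hd : NegType d) :
    r * ∑ i, ∑ j, d i j ≤
      Real.pi * (Nat.log 2 m : ℝ) * ∑ i, ∑ j, c i j * d i j := by
  obtain ⟨⟨x, hx⟩, htri⟩ := hd
  obtain ⟨B, hB0, hB⟩ := fourier x
  have hF : ∀ g, F d g = ∑ χ : AddChar G ℂ, B χ * ‖1 - χ g‖ ^ 2 := by
    intro g
    rw [← hB g, F]
    exact sum_congr rfl fun t _ => hx _ _
  have hF0 : ∀ g, 0 ≤ F d g := by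
    intro g
    rw [hF]
    exact sum_nonneg fun χ _ => mul_nonneg (hB0 χ) (by positivity)
  have hdd : ∀ i, d i i = 0 := by
    intro i
    rw [hx, sub_self, norm_zero]
    norm_num
  choose k hk1 using fun χ : AddChar G ℂ => lift2 hm χ
  have hm1 : (0 : ℝ) < m := by exact_mod_cast Nat.pos_of_ne_zero (NeZero.ne m)
  set T : G → ℝ := fun g => ∑ χ : AddChar G ℂ, B χ * ((circ (k χ g) : ℝ) / m) with hT
  -- the upper bound of T
  have hT1 : ∀ g, T g ≤ 1 / 4 * (Nat.log 2 m : ℝ) * F d g := by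
    intro g
    have h1 : T g ≤ ∑ χ : AddChar G ℂ, B χ * (1 / 4 * ∑ j ∈ range (Nat.log 2 m),
        (1 / 2) ^ j * ‖1 - χ ((2 : ℕ) ^ j • g)‖ ^ 2) := by
      refine sum_le_sum fun χ _ => mul_le_mul_of_nonneg_left ?_ (hB0 χ)
      refine (trig_scale (k χ g)).trans (le_of_eq ?_)
      congr 1
      refine sum_congr rfl fun j _ => ?_
      rw [AddChar.map_nsmul_eq_pow, AddChar.map_nsmul_eq_pow, hk1]
    have h2 : ∑ χ : AddChar G ℂ, B χ * (1 / 4 * ∑ j ∈ range (Nat.log 2 m),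
        (1 / 2) ^ j * ‖1 - χ ((2 : ℕ) ^ j • g)‖ ^ 2) =
        1 / 4 * ∑ j ∈ range (Nat.log 2 m), (1 / 2) ^ j * F d ((2 : ℕ) ^ j • g) := by
      simp only [hF, mul_sum]
      rw [sum_comm]
      refine sum_congr rfl fun j _ => sum_congr rfl fun χ _ => ?_
      ring
    have h3 : ∑ j ∈ range (Nat.log 2 m), (1 / 2 : ℝ) ^ j * F d ((2 : ℕ) ^ j • g) ≤
        ∑ j ∈ range (Nat.log 2 m), F d g := by
      refine sum_le_sum fun j _ => ?_
      have h4 := F_nsmul htri hdd (2 ^ j) g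
      push_cast at h4
      have h5 : (0 : ℝ) < (1 / 2) ^ j := by positivity
      have h6 := mul_le_mul_of_nonneg_left h4 h5.le
      have h7 : (1 / 2 : ℝ) ^ j * (2 ^ j * F d g) = F d g := by
        rw [← mul_assoc, ← mul_pow]
        norm_num
      linarith
    rw [sum_const, card_range, nsmul_eq_mul] at h3
    rw [h2] at h1
    linarith
  -- the lower bound of T
  have hT2 : ∀ g, F d g ≤ 4 * Real.pi * T g := by
    intro g
    rw [hF, hT]
    simp only [mul_sum]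
    refine sum_le_sum fun χ _ => ?_
    have h1 := mul_le_mul_of_nonneg_left (trig_upper (k χ g)) (hB0 χ)
    rw [← hk1] at h1
    refine h1.trans (le_of_eq ?_)
    ring
  -- the cuts
  have hcut : r * ∑ g, T g ≤ ∑ g, c g 0 * T g := by
    have h1 := cuts h0 hc (fun χ : AddChar G ℂ => B χ / m)
      (fun χ => div_nonneg (hB0 χ) hm1.le) k H
    have h2 : ∀ g, T g = ∑ χ : AddChar G ℂ, B χ / m * (circ (k χ g) : ℝ) := by
      intro g
      rw [hT]
      refine sum_congr rfl fun χ _ => ?_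
      ring
    simp only [h2]
    exact h1
  have hs1 : ∑ i, ∑ j, d i j = ∑ g, F d g := reidx d
  have hs2 : ∑ i, ∑ j, c i j * d i j = ∑ g, c g 0 * F d g := sum_c hc d
  rw [hs1, hs2]
  have e1 : r * ∑ g, F d g ≤ 4 * Real.pi * (r * ∑ g, T g) := by
    have h1 : ∑ g, F d g ≤ 4 * Real.pi * ∑ g, T g := by
      rw [mul_sum]
      exact sum_le_sum fun g _ => hT2 g
    have h2 := mul_le_mul_of_nonneg_left h1 (hr0)
    linarith
  have e2 : ∑ g, c g 0 * T g ≤ 1 / 4 * (Nat.log 2 m : ℝ) * ∑ g, c g 0 * F d g := by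
    rw [mul_sum]
    refine sum_le_sum fun g _ => ?_
    have h1 := mul_le_mul_of_nonneg_left (hT1 g) (h0 g 0)
    linarith
  have hpi := Real.pi_pos
  have e3 : 4 * Real.pi * (r * ∑ g, T g) ≤
      4 * Real.pi * (1 / 4 * (Nat.log 2 m : ℝ) * ∑ g, c g 0 * F d g) :=
    mul_le_mul_of_nonneg_left (hcut.trans e2) (by positivity)
  linarith

/-- exponent two: no loss -/
theorem main_two {c : G → G → ℝ} {r : ℝ} (h0 : ∀ i j, 0 ≤ c i j)
    (hc : ∀ t i j, c (i + t) (j + t) = c i j) (hm : ∀ g : G, 2 • g = 0)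
    (H : ∀ (k : G →+ ZMod 2) (u : ZMod 2), (half k u).Nonempty → (half k u)ᶜ.Nonempty →
      r ≤ cutRatio c (half k u))
    {d : G → G → ℝ} (hd : NegType d) :
    r * ∑ i, ∑ j, d i j ≤ ∑ i, ∑ j, c i j * d i j := by
  obtain ⟨⟨x, hx⟩, htri⟩ := hd
  obtain ⟨B, hB0, hB⟩ := fourier x
  choose k hk1 using fun χ : AddChar G ℂ => lift2 hm χ
  have hF : ∀ g, F d g = 4 * ∑ χ : AddChar G ℂ, B χ * (circ (k χ g) : ℝ) := by
    intro g
    have h1 : F d g = ∑ χ : AddChar G ℂ, B χ * ‖1 - χ g‖ ^ 2 := by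
      rw [← hB g, F]
      exact sum_congr rfl fun t _ => hx _ _
    rw [h1, mul_sum]
    refine sum_congr rfl fun χ _ => ?_
    rw [hk1, trig_two]
    ring
  have h1 := cuts h0 hc B hB0 k H
  have hs1 : ∑ i, ∑ j, d i j = ∑ g, F d g := reidx d
  have hs2 : ∑ i, ∑ j, c i j * d i j = ∑ g, c g 0 * F d g := sum_c hc d
  rw [hs1, hs2]
  have h2 : ∑ g, F d g = 4 * ∑ g, ∑ χ : AddChar G ℂ, B χ * (circ (k χ g) : ℝ) := by
    rw [mul_sum]
    exact sum_congr rfl fun g _ => hF g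
  have h3 : ∑ g, c g 0 * F d g =
      4 * ∑ g, c g 0 * ∑ χ : AddChar G ℂ, B χ * (circ (k χ g) : ℝ) := by
    rw [mul_sum]
    refine sum_congr rfl fun g _ => ?_
    rw [hF g]
    ring
  rw [h2, h3]
  linarith


/-- from the bound with a lower bound `r` of the cut ratios to a good cut -/
theorem good {m : ℕ} [NeZero m] {c : G → G → ℝ} {a : ℝ}
    (H : ∀ r : ℝ, a < r → (∀ (k : G →+ ZMod m) (u : ZMod m), (half k u).Nonempty →
      (half k u)ᶜ.Nonempty → r ≤ cutRatio c (half k u)) → False) :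
    ∃ (k : G →+ ZMod m) (u : ZMod m), (half k u).Nonempty ∧ (half k u)ᶜ.Nonempty ∧
      cutRatio c (half k u) ≤ a := by
  by_contra hcon
  push Not at hcon
  have : Finite (G →+ ZMod m) := Finite.of_injective (fun f => (f : G → ZMod m))
    DFunLike.coe_injective
  obtain ⟨r, hr1, hr2⟩ := gap_min (ι := (G →+ ZMod m) × ZMod m)
    (fun p => (half p.1 p.2).Nonempty ∧ (half p.1 p.2)ᶜ.Nonempty)
    (fun p => cutRatio c (half p.1 p.2)) a (fun p hp => hcon p.1 p.2 hp.1 hp.2)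
  exact H r hr1 fun k u h1 h2 => hr2 (k, u) ⟨h1, h2⟩

end group

end Ch

/-- a half-circle cut of a homomorphism to `ZMod m` loses at most `π ⌊log₂ m⌋` -/
theorem charCut {G : Type} [AddCommGroup G] [Fintype G] [DecidableEq G] [Nontrivial G] {m : ℕ}
    (hm0 : 0 < m) (hm : ∀ g : G, m • g = 0) {c : G → G → ℝ} (h0 : ∀ i j, 0 ≤ c i j)
    (hc : ∀ t i j, c (i + t) (j + t) = c i j) :
    ∃ (k : G →+ ZMod m) (u : ZMod m), (half k u).Nonempty ∧ (half k u)ᶜ.Nonempty ∧
      cutRatio c (half k u) ≤ Real.pi * (Nat.log 2 m : ℝ) * glVal c := by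
  have : NeZero m := ⟨hm0.ne'⟩
  have hm2 : 2 ≤ m := by
    by_contra h
    have h1 : m = 1 := by omega
    subst h1
    obtain ⟨a, b, hab⟩ := exists_pair_ne G
    exact hab (by rw [← one_nsmul a, ← one_nsmul b, hm, hm])
  have hlog : 0 < Nat.log 2 m := Nat.log_pos (by norm_num) hm2
  have hlog' : (0 : ℝ) < Nat.log 2 m := by exact_mod_cast hlog
  have hK : 0 < Real.pi * (Nat.log 2 m : ℝ) := by have := Real.pi_pos; positivity
  refine Ch.good fun r hr H => ?_
  have hr0 : 0 ≤ r := (mul_nonneg hK.le (Ch.gl_nonneg h0)).trans hr.le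
  have h1 := Ch.r_le_of hK fun d hd => Ch.main hr0 h0 hc hm H hd
  linarith

/-- exponent two: the kernel of some homomorphism to `ZMod 2` is an optimal cut -/
theorem charCut_two {G : Type} [AddCommGroup G] [Fintype G] [DecidableEq G] [Nontrivial G]
    (hm : ∀ g : G, 2 • g = 0) {c : G → G → ℝ} (h0 : ∀ i j, 0 ≤ c i j)
    (hc : ∀ t i j, c (i + t) (j + t) = c i j) :
    ∃ (k : G →+ ZMod 2) (u : ZMod 2), (half k u).Nonempty ∧ (half k u)ᶜ.Nonempty ∧
      cutRatio c (half k u) ≤ glVal c := by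
  refine Ch.good fun r hr H => ?_
  have h1 := Ch.r_le_of (c := c) (r := r) (K := 1) one_pos fun d hd => by
    rw [one_mul]
    exact Ch.main_two h0 hc hm H hd
  linarith

theorem card_hom {G : Type} [AddCommGroup G] [Fintype G] {m : ℕ} [NeZero m] :
    Nat.card (G →+ ZMod m) ≤ Fintype.card G := by
  classical
  have h1 : Function.Injective
      (fun k : G →+ ZMod m => (ZMod.stdAddChar (N := m)).compAddMonoidHom k) := by
    intro k l h
    ext g
    apply ZMod.injective_stdAddChar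
    exact DFunLike.congr_fun h g
  have h2 := Nat.card_le_card_of_injective _ h1
  rwa [Nat.card_eq_fintype_card (α := AddChar G ℂ), AddChar.card_eq] at h2

/-- the family of all half-circle cuts of homomorphisms -/
theorem family {G : Type} [AddCommGroup G] [Fintype G] [DecidableEq G] {m : ℕ} [NeZero m] :
    ∃ 𝒮 : Finset (Finset G), #𝒮 ≤ m * Fintype.card G ∧
      ∀ S, S ∈ 𝒮 ↔ ∃ (k : G →+ ZMod m) (u : ZMod m), S = half k u := by
  classical
  have : Finite (G →+ ZMod m) := Finite.of_injective (fun f => (f : G → ZMod m))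
    DFunLike.coe_injective
  have := Fintype.ofFinite (G →+ ZMod m)
  refine ⟨(univ : Finset ((G →+ ZMod m) × ZMod m)).image (fun p => half p.1 p.2), ?_, ?_⟩
  · refine card_image_le.trans ?_
    rw [card_univ, Fintype.card_prod, ZMod.card, ← Nat.card_eq_fintype_card, mul_comm]
    exact Nat.mul_le_mul_left _ card_hom
  · intro S
    rw [mem_image]
    constructor
    · rintro ⟨p, -, rfl⟩
      exact ⟨p.1, p.2, rfl⟩
    · rintro ⟨k, u, rfl⟩
      exact ⟨(k, u), mem_univ _, rfl⟩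

theorem cutRatio_compl {V : Type} [Fintype V] [DecidableEq V] {c : V → V → ℝ}
    (hs : ∀ i j, c i j = c j i) (S : Finset V) : cutRatio c Sᶜ = cutRatio c S := by
  unfold cutRatio
  rw [compl_compl, sum_comm, mul_comm (#Sᶜ : ℝ)]
  have h : ∑ y ∈ S, ∑ x ∈ Sᶜ, c x y = ∑ i ∈ S, ∑ j ∈ Sᶜ, c i j :=
    sum_congr rfl fun i _ => sum_congr rfl fun j _ => hs _ _
  rw [h]

/-- exponent two: some subgroup of index two is an optimal cut -/
theorem index_two {G : Type} [AddCommGroup G] [Fintype G] [DecidableEq G] [Nontrivial G]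
    (hm : ∀ g : G, 2 • g = 0) {c : G → G → ℝ} (h0 : ∀ i j, 0 ≤ c i j)
    (hs : ∀ i j, c i j = c j i) (hd : ∀ i, c i i = 0)
    (hc : ∀ t i j, c (i + t) (j + t) = c i j) :
    ∃ k : G →+ ZMod 2, k ≠ 0 ∧ cutRatio c (univ.filter fun g => k g = 0) = Phi c ∧
      Phi c = glVal c := by
  obtain ⟨k, u, h1, h2, h3⟩ := charCut_two hm h0 hc
  have hgl := gl_le_phi h0 hs hd
  have hphi : Phi c ≤ cutRatio c (half k u) := by
    refine csInf_le ⟨0, ?_⟩ ⟨half k u, h1, h2, rfl⟩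
    rintro r ⟨S, _, _, rfl⟩
    exact Mn.cutRatio_nonneg h0 S
  have hk : half k u = (univ.filter fun g => k g = 0) ∨
      (half k u)ᶜ = (univ.filter fun g => k g = 0) := by
    have h5 : ∀ x : ZMod 2, ((x + 0).val < 2 / 2) ↔ x = 0 := by decide
    have h6 : ∀ x : ZMod 2, (¬ (x + 1).val < 2 / 2) ↔ x = 0 := by decide
    have h7 : u = 0 ∨ u = 1 := by
      have h9 : ∀ x : ZMod 2, x = 0 ∨ x = 1 := by decide
      exact h9 u
    rcases h7 with rfl | rfl
    · left
      ext g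
      simp only [half, mem_filter, mem_univ, true_and]
      exact h5 (k g)
    · right
      ext g
      simp only [half, mem_compl, mem_filter, mem_univ, true_and]
      exact h6 (k g)
  have hr : cutRatio c (univ.filter fun g => k g = 0) = cutRatio c (half k u) := by
    rcases hk with h | h
    · rw [h]
    · rw [← h, cutRatio_compl hs]
  refine ⟨k, ?_, ?_, ?_⟩
  · rintro rfl
    have h8 : (univ.filter fun g : G => (0 : G →+ ZMod 2) g = 0) = univ := by
      ext g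
      simp
    rw [h8] at hk
    rcases hk with h | h
    · rw [h] at h2
      simp at h2
    · rw [Finset.compl_eq_univ_iff] at h
      rw [h] at h1
      simp at h1
  · rw [hr]
    exact le_antisymm (h3.trans hgl) hphi
  · exact le_antisymm (hphi.trans h3) hgl

end Vale.Agent.P318
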