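import Mathlib

/-!
P318: uniform sparsest cut and the Goemans-Linial relaxation, definitions.
-/

namespace Vale.Agent.P318

open Finset

variable {V : Type} [Fintype V] [DecidableEq V]

/-- The ratio of the cut `(S, V \ S)` with uniform demands. -/
noncomputable def cutRatio (c : V → V → ℝ) (S : Finset V) : ℝ :=
  (∑ i ∈ S, ∑ j ∈ Sᶜ, c i j) / ((#S : ℝ) * (#Sᶜ : ℝ))

/-- The value `Φ(c)` of uniform sparsest cut. -/
noncomputable def Phi (c : V → V → ℝ) : ℝ :=
  sInf {r | ∃ S : Finset V, S.Nonempty ∧ Sᶜ.Nonempty ∧ r = cutRatio c S}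

/-- Negative-type semimetrics. -/
def NegType (d : V → V → ℝ) : Prop :=
  (∃ x : V → EuclideanSpace ℝ V, ∀ i j, d i j = ‖x i - x j‖ ^ 2) ∧
    ∀ i j k, d i k ≤ d i j + d j k

/-- The value of the Goemans-Linial relaxation. The sums over unordered pairs are written as half
the sums over ordered pairs. -/
noncomputable def glVal (c : V → V → ℝ) : ℝ :=
  sInf {r | ∃ d : V → V → ℝ, NegType d ∧ (∑ i, ∑ j, d i j) / 2 = 1 ∧
    r = (∑ i, ∑ j, c i j * d i j) / 2}

/-- Distance from `0` on the discrete circle. -/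
def circ {m : ℕ} (k : ZMod m) : ℕ := min k.val (m - k.val)

end Vale.Agent.P318
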