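import Vale.Agent.P318.Defs

/-! P318, row EASY: cut semimetrics are feasible for the relaxation. -/

namespace Vale.Agent.P318

open Finset

namespace Easy

variable {V : Type} [Fintype V] [DecidableEq V]

/-- the indicator of `S` -/
noncomputable def ind (S : Finset V) (i : V) : ℝ := if i ∈ S then 1 else 0

theorem sum_cut (S : Finset V) (w : V → V → ℝ) :
    ∑ i, ∑ j, w i j * (ind S i - ind S j) ^ 2 =
      ∑ i ∈ S, ∑ j ∈ Sᶜ, w i j + ∑ i ∈ S, ∑ j ∈ Sᶜ, w j i := by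
  have h1 : ∀ w : V → V → ℝ, ∑ i ∈ S, ∑ j ∈ Sᶜ, w i j =
      ∑ i, ∑ j, if i ∈ S then (if j ∈ Sᶜ then w i j else 0) else 0 := by
    intro w
    have h2 : ∀ i, (∑ j, if i ∈ S then (if j ∈ Sᶜ then w i j else 0) else 0) =
        if i ∈ S then ∑ j ∈ Sᶜ, w i j else 0 := by
      intro i
      split_ifs with hi
      · rw [Finset.sum_ite_mem, Finset.univ_inter]
      · simp
    simp_rw [h2]
    rw [Finset.sum_ite_mem, Finset.univ_inter]
  rw [h1 w, h1 (fun i j => w j i)]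
  have h3 : ∑ i, ∑ j, (if i ∈ S then (if j ∈ Sᶜ then w j i else 0) else 0) =
      ∑ i, ∑ j, (if j ∈ S then (if i ∈ Sᶜ then w i j else 0) else 0) := Finset.sum_comm
  rw [h3, ← Finset.sum_add_distrib]
  refine Finset.sum_congr rfl fun i _ => ?_
  rw [← Finset.sum_add_distrib]
  refine Finset.sum_congr rfl fun j _ => ?_
  unfold ind
  by_cases hi : i ∈ S <;> by_cases hj : j ∈ S <;> simp [hi, hj]

end Easy

open Easy in
/-- [EASY] Easy.lean: cut semimetrics are feasible -/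
theorem gl_le_phi {V : Type} [Fintype V] [DecidableEq V] [Nontrivial V] {c : V → V → ℝ}
    (h0 : ∀ i j, 0 ≤ c i j) (hs : ∀ i j, c i j = c j i) (hd : ∀ i, c i i = 0) :
    glVal c ≤ Phi c := by
  refine le_csInf ?_ ?_
  · obtain ⟨a, b, hab⟩ := exists_pair_ne V
    exact ⟨_, {a}, ⟨a, by simp⟩, ⟨b, by simp [hab.symm]⟩, rfl⟩
  · rintro r ⟨S, hS, hSc, rfl⟩
    have hcs : (0 : ℝ) < #S := by exact_mod_cast hS.card_pos
    have hcc : (0 : ℝ) < #Sᶜ := by exact_mod_cast hSc.card_pos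
    have hm : (0 : ℝ) < (#S : ℝ) * (#Sᶜ : ℝ) := mul_pos hcs hcc
    have hbdd : BddBelow {r | ∃ d : V → V → ℝ, NegType d ∧ (∑ i, ∑ j, d i j) / 2 = 1 ∧
        r = (∑ i, ∑ j, c i j * d i j) / 2} := by
      refine ⟨0, ?_⟩
      rintro r ⟨d, ⟨⟨x, hx⟩, -⟩, -, rfl⟩
      refine div_nonneg (Finset.sum_nonneg fun i _ => Finset.sum_nonneg fun j _ => ?_) (by norm_num)
      rw [hx]
      exact mul_nonneg (h0 i j) (sq_nonneg _)
    refine csInf_le hbdd ?_
    set a2 : ℝ := 1 / ((#S : ℝ) * (#Sᶜ : ℝ)) with ha2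
    have ha2p : 0 ≤ a2 := by positivity
    obtain ⟨v0, -⟩ := hS
    refine ⟨fun i j => a2 * (ind S i - ind S j) ^ 2, ⟨⟨fun i =>
      (Real.sqrt a2 * ind S i) • EuclideanSpace.single v0 (1 : ℝ), ?_⟩, ?_⟩, ?_, ?_⟩
    · intro i j
      rw [← sub_smul, norm_smul, EuclideanSpace.norm_single, norm_one, mul_one, Real.norm_eq_abs,
        sq_abs, ← mul_sub, mul_pow, Real.sq_sqrt ha2p]
    · intro i j k
      simp only
      rw [← mul_add]
      apply mul_le_mul_of_nonneg_left _ ha2p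
      unfold ind
      by_cases hi : i ∈ S <;> by_cases hj : j ∈ S <;> by_cases hk : k ∈ S <;>
        simp [hi, hj, hk]
    · have h1 := sum_cut S (fun _ _ : V => a2)
      rw [h1]
      simp only [Finset.sum_const, nsmul_eq_mul]
      rw [ha2]
      field_simp
      ring
    · have h1 := sum_cut S (fun i j => c i j * a2)
      have h2 : ∑ i, ∑ j, c i j * (a2 * (ind S i - ind S j) ^ 2) =
          ∑ i, ∑ j, c i j * a2 * (ind S i - ind S j) ^ 2 := by
        refine Finset.sum_congr rfl fun i _ => Finset.sum_congr rfl fun j _ => ?_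
        ring
      have h3 : ∑ i ∈ S, ∑ j ∈ Sᶜ, c j i * a2 = ∑ i ∈ S, ∑ j ∈ Sᶜ, c i j * a2 := by
        refine Finset.sum_congr rfl fun i _ => Finset.sum_congr rfl fun j _ => ?_
        rw [hs j i]
      rw [h2, h1, h3]
      simp_rw [← Finset.sum_mul]
      unfold cutRatio
      rw [ha2]
      field_simp
      ring

end Vale.Agent.P318
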