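import Vale.Agent.P318.Main

/-!
P318: the comparison of the two values.
-/

namespace Vale.Agent.P318

open Finset

namespace Fin0

open Easy in
theorem feasible (V : Type) [Fintype V] [DecidableEq V] [Nontrivial V] :
    ∃ d : V → V → ℝ, NegType d ∧ (∑ i, ∑ j, d i j) / 2 = 1 := by
  obtain ⟨a, b, hab⟩ := exists_pair_ne V
  set S : Finset V := {a} with hS
  have hcs : (0 : ℝ) < #S := by
    have : 0 < #S := Finset.card_pos.2 ⟨a, by simp [hS]⟩
    exact_mod_cast this
  have hcc : (0 : ℝ) < #Sᶜ := by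
    have : 0 < #Sᶜ := Finset.card_pos.2 ⟨b, by simp [hS, hab.symm]⟩
    exact_mod_cast this
  set a2 : ℝ := 1 / ((#S : ℝ) * (#Sᶜ : ℝ)) with ha2
  have ha2p : 0 ≤ a2 := by positivity
  refine ⟨fun i j => a2 * (ind S i - ind S j) ^ 2, ⟨⟨fun i =>
    (Real.sqrt a2 * ind S i) • EuclideanSpace.single a (1 : ℝ), ?_⟩, ?_⟩, ?_⟩
  · intro i j
    rw [← sub_smul, norm_smul, EuclideanSpace.norm_single, norm_one, mul_one, Real.norm_eq_abs,
      sq_abs, ← mul_sub, mul_pow, Real.sq_sqrt ha2p]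
  · intro i j k
    simp only
    rw [← mul_add]
    apply mul_le_mul_of_nonneg_left _ ha2p
    unfold ind
    by_cases hi : i ∈ S <;> by_cases hj : j ∈ S <;> by_cases hk : k ∈ S <;>
      simp [hi, hj, hk]
  · have h1 := sum_cut S (fun _ _ : V => a2)
    rw [h1]
    simp only [Finset.sum_const, nsmul_eq_mul]
    rw [ha2]
    field_simp
    ring

theorem phi_le_of {V : Type} [Fintype V] [DecidableEq V] [Nontrivial V] {c : V → V → ℝ} {K : ℝ}
    (hK : 0 < K)
    (H : ∀ d : V → V → ℝ, NegType d → Phi c * ∑ i, ∑ j, d i j ≤ K * ∑ i, ∑ j, c i j * d i j) :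
    Phi c ≤ K * glVal c := by
  have h1 : Phi c / K ≤ glVal c := by
    refine le_csInf ?_ ?_
    · obtain ⟨d, h1, h2⟩ := feasible V
      exact ⟨_, d, h1, h2, rfl⟩
    · rintro r ⟨d, h1, h2, rfl⟩
      have h3 := H d h1
      have h4 : ∑ i, ∑ j, d i j = 2 := by linarith
      rw [h4] at h3
      rw [div_le_iff₀ hK]
      linarith
  rw [div_le_iff₀ hK] at h1
  linarith

end Fin0

/-- the gap is at most `π ⌊log₂ m⌋` for exponent `m` -/
theorem gap {G : Type} [AddCommGroup G] [Fintype G] [DecidableEq G] [Nontrivial G] {m : ℕ}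
    (hm0 : 0 < m) (hm : ∀ g : G, m • g = 0) {c : G → G → ℝ} (h0 : ∀ i j, 0 ≤ c i j)
    (hc : ∀ t i j, c (i + t) (j + t) = c i j) :
    Phi c ≤ Real.pi * (Nat.log 2 m : ℝ) * glVal c := by
  have : NeZero m := ⟨hm0.ne'⟩
  have hm2 : 2 ≤ m := by
    by_contra h
    have h1 : m = 1 := by omega
    subst h1
    obtain ⟨a, b, hab⟩ := exists_pair_ne G
    exact hab (by rw [← one_nsmul a, ← one_nsmul b, hm, hm])
  have hlog : 0 < Nat.log 2 m := Nat.log_pos (by norm_num) hm2
  have hlog' : (0 : ℝ) < Nat.log 2 m := by exact_mod_cast hlog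
  exact Fin0.phi_le_of (by have := Real.pi_pos; positivity) fun d hd => Mn.main h0 hc hm hd

/-- no gap for exponent two -/
theorem gap_two {G : Type} [AddCommGroup G] [Fintype G] [DecidableEq G] [Nontrivial G]
    (hm : ∀ g : G, 2 • g = 0) {c : G → G → ℝ} (h0 : ∀ i j, 0 ≤ c i j)
    (hs : ∀ i j, c i j = c j i) (hd : ∀ i, c i i = 0)
    (hc : ∀ t i j, c (i + t) (j + t) = c i j) :
    Phi c = glVal c := by
  refine le_antisymm ?_ (gl_le_phi h0 hs hd)
  have h := Fin0.phi_le_of (c := c) (K := 1) one_pos fun d hd => by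
    rw [one_mul]
    exact Mn.main_two h0 hc hm hd
  rwa [one_mul] at h

end Vale.Agent.P318
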