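import Vale.Agent.P318.Defs

/-! P318, row FOU: Parseval for translation averages. -/

namespace Vale.Agent.P318

open Finset

namespace Fou

open scoped ComplexConjugate

variable {G : Type} [AddCommGroup G] [Fintype G] [DecidableEq G]

theorem parseval (h : G → ℂ) :
    ∑ χ : AddChar G ℂ, ‖∑ t, h t * conj (χ t)‖ ^ 2 = (Fintype.card G : ℝ) * ∑ t, ‖h t‖ ^ 2 := by
  have key : ∑ χ : AddChar G ℂ, ((‖∑ t, h t * conj (χ t)‖ ^ 2 : ℝ) : ℂ) =
      (Fintype.card G : ℂ) * ∑ t, ((‖h t‖ ^ 2 : ℝ) : ℂ) := by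
    have h1 : ∀ χ : AddChar G ℂ, ((‖∑ t, h t * conj (χ t)‖ ^ 2 : ℝ) : ℂ) =
        ∑ t, ∑ s, h t * conj (h s) * χ (s - t) := by
      intro χ
      rw [← Complex.normSq_eq_norm_sq, ← Complex.mul_conj, map_sum, Finset.sum_mul_sum]
      refine Finset.sum_congr rfl fun t _ => Finset.sum_congr rfl fun s _ => ?_
      rw [map_mul, Complex.conj_conj, sub_eq_add_neg, AddChar.map_add_eq_mul,
        AddChar.map_neg_eq_conj]
      ring
    rw [Finset.sum_congr rfl fun χ _ => h1 χ, Finset.sum_comm, Finset.mul_sum]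
    refine Finset.sum_congr rfl fun t _ => ?_
    rw [Finset.sum_comm]
    have h2 : ∀ s : G, ∑ χ : AddChar G ℂ, h t * conj (h s) * χ (s - t) =
        if s = t then (Fintype.card G : ℂ) * (h t * conj (h t)) else 0 := by
      intro s
      rw [← Finset.mul_sum, AddChar.sum_apply_eq_ite]
      by_cases hs : s = t
      · subst hs
        rw [if_pos (sub_self s), if_pos rfl]
        ring
      · rw [if_neg (sub_ne_zero.2 hs), if_neg hs, mul_zero]
    rw [Finset.sum_congr rfl fun s _ => h2 s, Finset.sum_ite_eq' Finset.univ t,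
      if_pos (Finset.mem_univ t), Complex.mul_conj, Complex.normSq_eq_norm_sq]
  have := congrArg Complex.re key
  have e1 : (∑ χ : AddChar G ℂ, ((‖∑ t, h t * conj (χ t)‖ ^ 2 : ℝ) : ℂ)) =
      ((∑ χ : AddChar G ℂ, ‖∑ t, h t * conj (χ t)‖ ^ 2 : ℝ) : ℂ) := by
    rw [Complex.ofReal_sum]
  have e2 : (Fintype.card G : ℂ) * ∑ t, ((‖h t‖ ^ 2 : ℝ) : ℂ) =
      (((Fintype.card G : ℝ) * ∑ t, ‖h t‖ ^ 2 : ℝ) : ℂ) := by
    rw [Complex.ofReal_mul, Complex.ofReal_sum, Complex.ofReal_natCast]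
  rw [e1, e2, Complex.ofReal_inj] at key
  exact key

theorem shift (f : G → ℂ) (g : G) (χ : AddChar G ℂ) :
    ∑ t, (f (t + g) - f t) * conj (χ t) = (χ g - 1) * ∑ t, f t * conj (χ t) := by
  have h1 : ∑ t, f (t + g) * conj (χ t) = χ g * ∑ t, f t * conj (χ t) := by
    rw [← Equiv.sum_comp (Equiv.addRight g) (fun t => f t * conj (χ t)), Finset.mul_sum]
    refine Finset.sum_congr rfl fun t _ => ?_
    rw [Equiv.coe_addRight, AddChar.map_add_eq_mul, map_mul]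
    have h2 : χ g * conj (χ g) = 1 := by
      rw [← AddChar.map_neg_eq_conj, ← AddChar.map_add_eq_mul, add_neg_cancel,
        AddChar.map_zero_eq_one]
    calc f (t + g) * conj (χ t) = (χ g * conj (χ g)) * (f (t + g) * conj (χ t)) := by
          rw [h2, one_mul]
      _ = χ g * (f (t + g) * (conj (χ t) * conj (χ g))) := by ring
  rw [sub_mul, one_mul, ← h1, ← Finset.sum_sub_distrib]
  exact Finset.sum_congr rfl fun t _ => sub_mul _ _ _

theorem one_coord (f : G → ℝ) (g : G) : ∑ t, (f (t + g) - f t) ^ 2 =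
    ∑ χ : AddChar G ℂ, ((Fintype.card G : ℝ)⁻¹ * ‖∑ t, (f t : ℂ) * conj (χ t)‖ ^ 2) *
      ‖1 - χ g‖ ^ 2 := by
  have h1 := parseval (fun t => ((f (t + g) : ℂ) - (f t : ℂ)))
  have hn : (Fintype.card G : ℝ) ≠ 0 := by
    have : Nonempty G := ⟨0⟩
    exact Nat.cast_ne_zero.2 Fintype.card_ne_zero
  have h2 : ∑ t, (f (t + g) - f t) ^ 2 = ∑ t, ‖((f (t + g) : ℂ) - (f t : ℂ))‖ ^ 2 := by
    refine Finset.sum_congr rfl fun t _ => ?_
    rw [← Complex.ofReal_sub, Complex.norm_real, Real.norm_eq_abs, sq_abs]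
  rw [h2]
  have h3 : ∀ χ : AddChar G ℂ, ‖∑ t, ((f (t + g) : ℂ) - (f t : ℂ)) * conj (χ t)‖ ^ 2 =
      ‖∑ t, (f t : ℂ) * conj (χ t)‖ ^ 2 * ‖1 - χ g‖ ^ 2 := by
    intro χ
    rw [shift (fun t => (f t : ℂ)) g χ, norm_mul, mul_pow, norm_sub_rev, mul_comm]
  rw [Finset.sum_congr rfl fun χ _ => h3 χ] at h1
  have h4 : ∑ t, ‖((f (t + g) : ℂ) - (f t : ℂ))‖ ^ 2 = (Fintype.card G : ℝ)⁻¹ *
      ∑ χ : AddChar G ℂ, ‖∑ t, (f t : ℂ) * conj (χ t)‖ ^ 2 * ‖1 - χ g‖ ^ 2 := by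
    rw [h1, inv_mul_cancel_left₀ hn]
  rw [h4, Finset.mul_sum]
  exact Finset.sum_congr rfl fun χ _ => (mul_assoc _ _ _).symm

end Fou

theorem fourier {G V : Type} [AddCommGroup G] [Fintype G] [DecidableEq G] [Fintype V]
    (x : G → EuclideanSpace ℝ V) :
    ∃ B : AddChar G ℂ → ℝ, (∀ χ, 0 ≤ B χ) ∧
      ∀ g, ∑ t, ‖x (t + g) - x t‖ ^ 2 = ∑ χ : AddChar G ℂ, B χ * ‖1 - χ g‖ ^ 2 := by
  refine ⟨fun χ => ∑ i : V, (Fintype.card G : ℝ)⁻¹ *
    ‖∑ t, (x t i : ℂ) * (starRingEnd ℂ) (χ t)‖ ^ 2, fun χ => ?_, fun g => ?_⟩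
  · exact Finset.sum_nonneg fun i _ => mul_nonneg (inv_nonneg.2 (Nat.cast_nonneg _)) (sq_nonneg _)
  · have h1 : ∀ t, ‖x (t + g) - x t‖ ^ 2 = ∑ i, (x (t + g) i - x t i) ^ 2 := by
      intro t
      rw [EuclideanSpace.norm_sq_eq]
      refine Finset.sum_congr rfl fun i _ => ?_
      rw [PiLp.sub_apply, Real.norm_eq_abs, sq_abs]
    rw [Finset.sum_congr rfl fun t _ => h1 t, Finset.sum_comm,
      Finset.sum_congr rfl fun i _ => Fou.one_coord (fun t => x t i) g, Finset.sum_comm]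
    exact Finset.sum_congr rfl fun χ _ => (Finset.sum_mul _ _ _).symm

end Vale.Agent.P318
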