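import Vale.Agent.P318.Defs

/-!
# P318: every character of a group of exponent `m` factors through `ZMod m`
-/

namespace Vale.Agent.P318

open Finset

theorem Lift.exists_val {m : ℕ} [NeZero m] {z : ℂ} (hz : z ^ m = 1) :
    ∃ k : ZMod m, z = ZMod.stdAddChar k := by
  have hm : m ≠ 0 := NeZero.ne m
  obtain ⟨i, -, hi⟩ := (Complex.isPrimitiveRoot_exp m hm).eq_pow_of_pow_eq_one hz
  refine ⟨((i : ℤ) : ZMod m), ?_⟩
  rw [ZMod.stdAddChar_coe, ← hi, ← Complex.exp_nat_mul]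
  congr 1
  push_cast
  ring

/-- [LIFT] -/
theorem lift {G : Type} [AddCommGroup G] [Fintype G] {m : ℕ} [NeZero m]
    (hm : ∀ g : G, m • g = 0) (χ : AddChar G ℂ) :
    ∃ k : G → ZMod m, (∀ g, χ g = ZMod.stdAddChar (k g)) ∧ ∀ g h, k (g - h) = k g - k h := by
  have h1 : ∀ g : G, ∃ k : ZMod m, χ g = ZMod.stdAddChar k := fun g =>
    Lift.exists_val (by rw [← AddChar.map_nsmul_eq_pow, hm g, AddChar.map_zero_eq_one])
  choose k hk using h1
  refine ⟨k, hk, fun g h => ?_⟩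
  apply ZMod.injective_stdAddChar
  rw [← hk, sub_eq_add_neg, sub_eq_add_neg, AddChar.map_add_eq_mul, AddChar.map_add_eq_mul,
    hk g]
  congr 1
  have e1 : χ (-h) * χ h = 1 := by
    rw [← AddChar.map_add_eq_mul, neg_add_cancel, AddChar.map_zero_eq_one]
  have e2 : (ZMod.stdAddChar (-(k h)) : ℂ) * ZMod.stdAddChar (k h) = 1 := by
    rw [← AddChar.map_add_eq_mul, neg_add_cancel, AddChar.map_zero_eq_one]
  have e3 : χ h ≠ 0 := right_ne_zero_of_mul_eq_one e1
  rw [← hk h] at e2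
  exact mul_right_cancel₀ e3 (e1.trans e2.symm)

end Vale.Agent.P318
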