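import Vale.Agent.P318.Defs

/-! P318, row TRIG. -/

namespace Vale.Agent.P318

open Finset

namespace Trig

theorem nat_eq {m : ℕ} [NeZero m] (n : ℕ) :
    ‖1 - ZMod.stdAddChar (n : ZMod m)‖ ^ 2 = 4 * Real.sin (Real.pi * (n / m)) ^ 2 := by
  have h1 : ZMod.stdAddChar (n : ZMod m) =
      Complex.exp (Complex.I * ((2 * Real.pi * (n / m) : ℝ) : ℂ)) := by
    have := ZMod.stdAddChar_coe (N := m) (n : ℤ)
    rw [Int.cast_natCast] at this
    rw [this]
    congr 1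
    push_cast
    ring
  rw [h1, norm_sub_rev, Complex.norm_exp_I_mul_ofReal_sub_one, Real.norm_eq_abs, sq_abs]
  rw [show 2 * Real.pi * ((n : ℝ) / m) / 2 = Real.pi * (n / m) by ring]
  ring

theorem smul_eq {m : ℕ} [NeZero m] (n : ℕ) (k : ZMod m) :
    ‖1 - ZMod.stdAddChar (n • k)‖ ^ 2 = 4 * Real.sin (n * (Real.pi * (circ k / m))) ^ 2 := by
  have hm : (m : ℝ) ≠ 0 := by exact_mod_cast NeZero.ne m
  have h1 : n • k = ((n * k.val : ℕ) : ZMod m) := by
    rw [Nat.cast_mul, ZMod.natCast_zmod_val, nsmul_eq_mul]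
  rw [h1, nat_eq]
  congr 1
  unfold circ
  rcases le_total k.val (m - k.val) with h | h
  · rw [min_eq_left h]
    congr 2
    push_cast
    ring
  · rw [min_eq_right h]
    have h2 : ((m - k.val : ℕ) : ℝ) = m - k.val := by
      rw [Nat.cast_sub (ZMod.val_lt k).le]
    rw [h2]
    have h3 : (n : ℝ) * (Real.pi * ((m - k.val) / m)) =
        n * Real.pi - Real.pi * (((n * k.val : ℕ) : ℝ) / m) := by
      push_cast
      field_simp
    rw [h3, Real.sin_sub, Real.sin_nat_mul_pi]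
    rw [zero_mul, zero_sub, neg_sq, mul_pow]
    have h4 : Real.cos (n * Real.pi) ^ 2 = 1 := by
      have := Real.sin_sq_add_cos_sq (n * Real.pi)
      rw [Real.sin_nat_mul_pi] at this
      linarith
    rw [h4, one_mul]

theorem self_eq {m : ℕ} [NeZero m] (k : ZMod m) :
    ‖1 - ZMod.stdAddChar k‖ ^ 2 = 4 * Real.sin (Real.pi * (circ k / m)) ^ 2 := by
  have := smul_eq 1 k
  rwa [one_smul, Nat.cast_one, one_mul] at this

theorem two_circ {m : ℕ} [NeZero m] (k : ZMod m) : 2 * circ k ≤ m := by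
  have := ZMod.val_lt k
  unfold circ
  omega

end Trig

/-- [TRIG] Trig.lean -/
theorem trig_upper {m : ℕ} [NeZero m] (k : ZMod m) :
    ‖1 - ZMod.stdAddChar k‖ ^ 2 ≤ 4 * Real.pi * ((circ k : ℝ) / m) := by
  rw [Trig.self_eq]
  have h0 : 0 ≤ Real.pi * ((circ k : ℝ) / m) := by positivity
  have h1 := Real.sin_le h0
  have h2 := Real.sin_le_one (Real.pi * ((circ k : ℝ) / m))
  have h3 : 0 ≤ Real.sin (Real.pi * ((circ k : ℝ) / m)) := by
    apply Real.sin_nonneg_of_nonneg_of_le_pi h0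
    have hc : ((circ k : ℝ) / m) ≤ 1 := by
      apply div_le_one_of_le₀ _ (Nat.cast_nonneg _)
      have := Trig.two_circ k
      exact_mod_cast (by omega : circ k ≤ m)
    have := Real.pi_pos
    nlinarith
  nlinarith

theorem trig_scale {m : ℕ} [NeZero m] (k : ZMod m) :
    (circ k : ℝ) / m ≤
      1 / 4 * ∑ j ∈ range (Nat.log 2 m), (1 / 2) ^ j * ‖1 - ZMod.stdAddChar ((2 : ℕ) ^ j • k)‖ ^ 2 := by
  have hnn : ∀ j ∈ range (Nat.log 2 m),
      (0 : ℝ) ≤ (1 / 2) ^ j * ‖1 - ZMod.stdAddChar ((2 : ℕ) ^ j • k)‖ ^ 2 := fun j _ => by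
    positivity
  have hm : 0 < m := Nat.pos_of_ne_zero (NeZero.ne m)
  have hm' : (0 : ℝ) < m := by exact_mod_cast hm
  rcases Nat.eq_zero_or_pos (circ k) with h0 | h0
  · rw [h0, Nat.cast_zero, zero_div]
    exact mul_nonneg (by norm_num) (Finset.sum_nonneg hnn)
  obtain ⟨d, hd⟩ : ∃ d, d = circ k := ⟨_, rfl⟩
  have h2 := Trig.two_circ k
  rw [← hd] at h0 h2
  have hq : 2 ≤ m / d := (Nat.le_div_iff_mul_le h0).2 h2
  obtain ⟨L, hL⟩ : ∃ L, Nat.log 2 (m / d) = L + 1 := by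
    have : 0 < Nat.log 2 (m / d) := Nat.log_pos (by norm_num) hq
    exact ⟨Nat.log 2 (m / d) - 1, by omega⟩
  have e1 : 2 ^ (L + 1) ≤ m / d := by
    rw [← hL]; exact Nat.pow_log_le_self 2 (by omega)
  have e2 : m / d < 2 ^ (L + 2) := by
    have := Nat.lt_pow_succ_log_self (b := 2) (by norm_num) (m / d)
    rwa [hL] at this
  have f1 : 2 ^ (L + 1) * d ≤ m := (Nat.le_div_iff_mul_le h0).1 e1
  have f2 : m < 2 ^ (L + 2) * d := (Nat.div_lt_iff_lt_mul h0).1 e2
  have hLm : L ∈ range (Nat.log 2 m) := by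
    rw [Finset.mem_range]
    have : L + 1 ≤ Nat.log 2 m := by
      rw [← hL]; exact Nat.log_mono_right (Nat.div_le_self m d)
    omega
  have hs := Finset.single_le_sum hnn hLm
  have g1 : (2 : ℝ) ^ L * (d / m) ≤ 1 / 2 := by
    rw [← mul_div_assoc, div_le_iff₀ hm']
    have : ((2 ^ (L + 1) * d : ℕ) : ℝ) ≤ m := by exact_mod_cast f1
    push_cast at this
    rw [pow_succ] at this
    linarith
  have g2 : 1 / 4 ≤ (2 : ℝ) ^ L * (d / m) := by
    rw [← mul_div_assoc, le_div_iff₀ hm']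
    have : (m : ℝ) < ((2 ^ (L + 2) * d : ℕ) : ℝ) := by exact_mod_cast f2
    push_cast at this
    rw [pow_add] at this
    linarith
  have hsin : 1 / 2 ≤ Real.sin ((2 : ℝ) ^ L * (Real.pi * (d / m))) ^ 2 := by
    have hc : Real.cos (2 * ((2 : ℝ) ^ L * (Real.pi * (d / m)))) ≤ 0 := by
      apply Real.cos_nonpos_of_pi_div_two_le_of_le
      · nlinarith [Real.pi_pos]
      · nlinarith [Real.pi_pos]
    rw [Real.cos_two_mul, Real.cos_sq'] at hc
    linarith
  have hterm : ‖1 - ZMod.stdAddChar ((2 : ℕ) ^ L • k)‖ ^ 2 =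
      4 * Real.sin ((2 : ℝ) ^ L * (Real.pi * (d / m))) ^ 2 := by
    rw [Trig.smul_eq, ← hd]
    push_cast
    rfl
  rw [← hd]
  have h5 : (d : ℝ) / m ≤ 1 / 2 * (1 / 2) ^ L := by
    have h6 : (0 : ℝ) < 2 ^ L := by positivity
    have h7 : (1 / 2 : ℝ) ^ L = 1 / 2 ^ L := by rw [one_div, inv_pow, one_div]
    rw [h7, mul_one_div, le_div_iff₀ h6, mul_comm]
    exact g1
  have h8 : (0 : ℝ) < (1 / 2) ^ L := by positivity
  rw [hterm] at hs
  nlinarith

theorem trig_two (k : ZMod 2) : ‖1 - ZMod.stdAddChar k‖ ^ 2 = 4 * (circ k : ℝ) := by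
  rw [Trig.self_eq]
  have h : k = 0 ∨ k = 1 := by
    revert k; decide
  rcases h with rfl | rfl
  · have : circ (0 : ZMod 2) = 0 := by decide
    rw [this]
    simp
  · have : circ (1 : ZMod 2) = 1 := by decide
    rw [this]
    rw [show Real.pi * (((1 : ℕ) : ℝ) / ((2 : ℕ) : ℝ)) = Real.pi / 2 by push_cast; ring,
      Real.sin_pi_div_two]
    norm_num

end Vale.Agent.P318
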