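import Vale.Agent.P318.Count
import Vale.Agent.P318.Trig
import Vale.Agent.P318.Fou
import Vale.Agent.P318.Lift
import Vale.Agent.P318.Easy

/-!
P318: the Goemans-Linial gap of translation invariant capacities on a finite abelian group.
-/

namespace Vale.Agent.P318

open Finset

namespace Mn

section general

variable {V : Type} [Fintype V] [DecidableEq V]

theorem cutRatio_nonneg {c : V → V → ℝ} (h0 : ∀ i j, 0 ≤ c i j) (S : Finset V) :
    0 ≤ cutRatio c S :=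
  div_nonneg (sum_nonneg fun _ _ => sum_nonneg fun _ _ => h0 _ _) (by positivity)

theorem phi_nonneg {c : V → V → ℝ} (h0 : ∀ i j, 0 ≤ c i j) : 0 ≤ Phi c := by
  apply Real.sInf_nonneg
  rintro r ⟨S, _, _, rfl⟩
  exact cutRatio_nonneg h0 S

theorem phi_le {c : V → V → ℝ} (h0 : ∀ i j, 0 ≤ c i j) (S : Finset V) :
    Phi c * ∑ i, ∑ j, (if i ∈ S ∧ j ∉ S then (1 : ℝ) else 0) ≤
      ∑ i, ∑ j, c i j * (if i ∈ S ∧ j ∉ S then (1 : ℝ) else 0) := by
  have h1 : ∀ f : V → V → ℝ, ∑ i, ∑ j, f i j * (if i ∈ S ∧ j ∉ S then (1 : ℝ) else 0) =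
      ∑ i ∈ S, ∑ j ∈ Sᶜ, f i j := by
    intro f
    rw [← Finset.sum_filter_add_sum_filter_not univ (fun i => i ∈ S)
      (fun i => ∑ j, f i j * (if i ∈ S ∧ j ∉ S then (1 : ℝ) else 0))]
    have h2 : ∑ i ∈ univ.filter (fun i => ¬ i ∈ S),
        ∑ j, f i j * (if i ∈ S ∧ j ∉ S then (1 : ℝ) else 0) = 0 := by
      refine sum_eq_zero fun i hi => sum_eq_zero fun j _ => ?_
      rw [if_neg (fun h => (mem_filter.1 hi).2 h.1), mul_zero]
    rw [h2, add_zero]
    have h3 : univ.filter (fun i => i ∈ S) = S := by ext; simp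
    rw [h3]
    refine sum_congr rfl fun i hi => ?_
    rw [← Finset.sum_filter_add_sum_filter_not univ (fun j => j ∉ S)
      (fun j => f i j * (if i ∈ S ∧ j ∉ S then (1 : ℝ) else 0))]
    have h4 : ∑ j ∈ univ.filter (fun j => ¬ j ∉ S),
        f i j * (if i ∈ S ∧ j ∉ S then (1 : ℝ) else 0) = 0 := by
      refine sum_eq_zero fun j hj => ?_
      rw [if_neg (fun h => (mem_filter.1 hj).2 h.2), mul_zero]
    rw [h4, add_zero]
    have h5 : univ.filter (fun j => j ∉ S) = Sᶜ := by ext; simp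
    rw [h5]
    refine sum_congr rfl fun j hj => ?_
    rw [if_pos ⟨hi, mem_compl.1 hj⟩, mul_one]
  have h2 := h1 (fun _ _ => 1)
  simp only [one_mul] at h2
  rw [h2, h1 c]
  simp only [sum_const, nsmul_eq_mul, mul_one]
  by_cases hS : S.Nonempty ∧ Sᶜ.Nonempty
  · obtain ⟨hS1, hS2⟩ := hS
    have h3 : Phi c ≤ cutRatio c S := by
      refine csInf_le ⟨0, ?_⟩ ⟨S, hS1, hS2, rfl⟩
      rintro r ⟨S, _, _, rfl⟩
      exact cutRatio_nonneg h0 S
    have h4 : (0 : ℝ) < (#S : ℝ) * (#Sᶜ : ℝ) := by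
      have := hS1.card_pos
      have := hS2.card_pos
      positivity
    rw [cutRatio, le_div_iff₀ h4] at h3
    exact h3
  · have h3 : (#S : ℝ) * (#Sᶜ : ℝ) = 0 := by
      rw [not_and_or, Finset.not_nonempty_iff_eq_empty, Finset.not_nonempty_iff_eq_empty] at hS
      rcases hS with h | h
      · rw [h]; simp
      · rw [h]; simp
    rw [h3, mul_zero]
    exact sum_nonneg fun _ _ => sum_nonneg fun _ _ => h0 _ _

theorem phi_circ {c : V → V → ℝ} (h0 : ∀ i j, 0 ≤ c i j) {m : ℕ} [NeZero m] (k : V → ZMod m) :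
    Phi c * ∑ i, ∑ j, (circ (k i - k j) : ℝ) ≤ ∑ i, ∑ j, c i j * (circ (k i - k j) : ℝ) := by
  have h1 : ∀ i j, (circ (k i - k j) : ℝ) = ∑ u : ZMod m,
      (if i ∈ univ.filter (fun i => (k i + u).val < m / 2) ∧
        j ∉ univ.filter (fun i => (k i + u).val < m / 2) then (1 : ℝ) else 0) := by
    intro i j
    rw [← count (k i) (k j), Finset.card_filter]
    push_cast
    refine sum_congr rfl fun u _ => ?_
    simp only [mem_filter, mem_univ, true_and]
  have h2 := sum_le_sum fun (u : ZMod m) (_ : u ∈ univ) =>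
    phi_le h0 (univ.filter (fun i => (k i + u).val < m / 2))
  rw [← mul_sum] at h2
  have h3 : ∀ f : V → V → ℝ, ∑ i, ∑ j, f i j * (circ (k i - k j) : ℝ) =
      ∑ u : ZMod m, ∑ i, ∑ j, f i j *
        (if i ∈ univ.filter (fun i => (k i + u).val < m / 2) ∧
          j ∉ univ.filter (fun i => (k i + u).val < m / 2) then (1 : ℝ) else 0) := by
    intro f
    symm
    rw [sum_comm]
    refine sum_congr rfl fun i _ => ?_
    rw [sum_comm]
    refine sum_congr rfl fun j _ => ?_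
    rw [h1, mul_sum]
  have h4 := h3 (fun _ _ => 1)
  simp only [one_mul] at h4
  rw [h4, h3 c]
  exact h2

end general

section group

variable {G : Type} [AddCommGroup G] [Fintype G] [DecidableEq G]

theorem reidx (A : G → G → ℝ) : ∑ i, ∑ j, A i j = ∑ g, ∑ t, A (t + g) t := by
  rw [sum_comm]
  rw [sum_comm (f := fun g t => A (t + g) t)]
  refine sum_congr rfl fun j _ => ?_
  exact (Equiv.sum_comp (Equiv.addLeft j) (fun i => A i j)).symm

theorem c_inv {c : G → G → ℝ} (hc : ∀ t i j, c (i + t) (j + t) = c i j) (t g : G) :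
    c (t + g) t = c g 0 := by
  have h := hc t g 0
  rwa [zero_add, add_comm g t] at h

theorem sum_c {c : G → G → ℝ} (hc : ∀ t i j, c (i + t) (j + t) = c i j) (d : G → G → ℝ) :
    ∑ i, ∑ j, c i j * d i j = ∑ g, c g 0 * ∑ t, d (t + g) t := by
  rw [reidx]
  refine sum_congr rfl fun g _ => ?_
  rw [mul_sum]
  refine sum_congr rfl fun t _ => ?_
  rw [c_inv hc]

theorem sum_c' {c : G → G → ℝ} (hc : ∀ t i j, c (i + t) (j + t) = c i j) (φ : G → ℝ) :
    ∑ i, ∑ j, c i j * φ (i - j) = (Fintype.card G : ℝ) * ∑ g, c g 0 * φ g := by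
  rw [sum_c hc (fun i j => φ (i - j)), mul_sum]
  refine sum_congr rfl fun g _ => ?_
  simp only [add_sub_cancel_left, sum_const, card_univ, nsmul_eq_mul]
  ring

/-- the averaged metric -/
noncomputable def F (d : G → G → ℝ) (g : G) : ℝ := ∑ t, d (t + g) t

theorem F_add {d : G → G → ℝ} (hd : ∀ i j k, d i k ≤ d i j + d j k) (g h : G) :
    F d (g + h) ≤ F d g + F d h := by
  have h1 : F d g = ∑ t, d (t + h + g) (t + h) :=
    (Equiv.sum_comp (Equiv.addRight h) (fun t => d (t + g) t)).symm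
  rw [h1, F, F, ← sum_add_distrib]
  refine sum_le_sum fun t _ => ?_
  have h2 := hd (t + (g + h)) (t + h) t
  have h3 : t + (g + h) = t + h + g := by abel
  rw [h3] at h2 ⊢
  exact h2

theorem F_nsmul {d : G → G → ℝ} (hd : ∀ i j k, d i k ≤ d i j + d j k) (h0 : ∀ i, d i i = 0)
    (n : ℕ) (g : G) : F d (n • g) ≤ n * F d g := by
  induction n with
  | zero =>
    rw [zero_nsmul, F]
    simp [h0]
  | succ n ih =>
    rw [succ_nsmul]
    push_cast
    have := F_add hd (n • g) g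
    linarith

/-- the cuts given by a family of homomorphisms to `ZMod m` -/
theorem cuts {c : G → G → ℝ} (h0 : ∀ i j, 0 ≤ c i j)
    (hc : ∀ t i j, c (i + t) (j + t) = c i j) {m : ℕ} [NeZero m] {ι : Type} [Fintype ι]
    (B : ι → ℝ) (hB0 : ∀ χ, 0 ≤ B χ) (k : ι → G → ZMod m)
    (hk2 : ∀ χ g h, k χ (g - h) = k χ g - k χ h) :
    Phi c * ∑ g, ∑ χ, B χ * (circ (k χ g) : ℝ) ≤
      ∑ g, c g 0 * ∑ χ, B χ * (circ (k χ g) : ℝ) := by
  have hn : (0 : ℝ) < Fintype.card G := by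
    have : 0 < Fintype.card G := Fintype.card_pos
    exact_mod_cast this
  have h1 : ∀ χ : ι, Phi c * ∑ g, (circ (k χ g) : ℝ) ≤
      ∑ g, c g 0 * (circ (k χ g) : ℝ) := by
    intro χ
    have h2 := phi_circ h0 (k χ)
    simp only [← hk2] at h2
    rw [sum_c' hc (fun g => (circ (k χ g) : ℝ))] at h2
    have h3 := sum_c' (c := fun _ _ => (1 : ℝ)) (fun _ _ _ => rfl)
      (fun g : G => (circ (k χ g) : ℝ))
    simp only [one_mul] at h3
    rw [h3] at h2
    have h4 : (Fintype.card G : ℝ) * (Phi c * ∑ g, (circ (k χ g) : ℝ)) ≤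
        (Fintype.card G : ℝ) * ∑ g, c g 0 * (circ (k χ g) : ℝ) := by linarith
    exact le_of_mul_le_mul_left h4 hn
  have h2 : ∑ χ : ι, B χ * (Phi c * ∑ g, (circ (k χ g) : ℝ)) ≤
      ∑ χ : ι, B χ * ∑ g, c g 0 * (circ (k χ g) : ℝ) :=
    sum_le_sum fun χ _ => mul_le_mul_of_nonneg_left (h1 χ) (hB0 χ)
  have h3 : Phi c * ∑ g, ∑ χ, B χ * (circ (k χ g) : ℝ) =
      ∑ χ : ι, B χ * (Phi c * ∑ g, (circ (k χ g) : ℝ)) := by
    simp only [mul_sum]
    rw [sum_comm]
    refine sum_congr rfl fun χ _ => sum_congr rfl fun g _ => ?_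
    ring
  have h4 : ∑ g, c g 0 * ∑ χ, B χ * (circ (k χ g) : ℝ) =
      ∑ χ : ι, B χ * ∑ g, c g 0 * (circ (k χ g) : ℝ) := by
    simp only [mul_sum]
    rw [sum_comm]
    refine sum_congr rfl fun χ _ => sum_congr rfl fun g _ => ?_
    ring
  rw [h3, h4]
  exact h2

theorem main {c : G → G → ℝ} (h0 : ∀ i j, 0 ≤ c i j)
    (hc : ∀ t i j, c (i + t) (j + t) = c i j) {m : ℕ} [NeZero m] (hm : ∀ g : G, m • g = 0)
    {d : G → G → ℝ} (hd : NegType d) :
    Phi c * ∑ i, ∑ j, d i j ≤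
      Real.pi * (Nat.log 2 m : ℝ) * ∑ i, ∑ j, c i j * d i j := by
  obtain ⟨⟨x, hx⟩, htri⟩ := hd
  obtain ⟨B, hB0, hB⟩ := fourier x
  have hF : ∀ g, F d g = ∑ χ : AddChar G ℂ, B χ * ‖1 - χ g‖ ^ 2 := by
    intro g
    rw [← hB g, F]
    exact sum_congr rfl fun t _ => hx _ _
  have hF0 : ∀ g, 0 ≤ F d g := by
    intro g
    rw [hF]
    exact sum_nonneg fun χ _ => mul_nonneg (hB0 χ) (by positivity)
  have hdd : ∀ i, d i i = 0 := by
    intro i
    rw [hx, sub_self, norm_zero]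
    norm_num
  choose k hk1 hk2 using fun χ : AddChar G ℂ => lift hm χ
  have hm1 : (0 : ℝ) < m := by exact_mod_cast Nat.pos_of_ne_zero (NeZero.ne m)
  set T : G → ℝ := fun g => ∑ χ : AddChar G ℂ, B χ * ((circ (k χ g) : ℝ) / m) with hT
  -- the upper bound of T
  have hT1 : ∀ g, T g ≤ 1 / 4 * (Nat.log 2 m : ℝ) * F d g := by
    intro g
    have h1 : T g ≤ ∑ χ : AddChar G ℂ, B χ * (1 / 4 * ∑ j ∈ range (Nat.log 2 m),
        (1 / 2) ^ j * ‖1 - χ ((2 : ℕ) ^ j • g)‖ ^ 2) := by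
      refine sum_le_sum fun χ _ => mul_le_mul_of_nonneg_left ?_ (hB0 χ)
      refine (trig_scale (k χ g)).trans (le_of_eq ?_)
      congr 1
      refine sum_congr rfl fun j _ => ?_
      rw [AddChar.map_nsmul_eq_pow, AddChar.map_nsmul_eq_pow, hk1]
    have h2 : ∑ χ : AddChar G ℂ, B χ * (1 / 4 * ∑ j ∈ range (Nat.log 2 m),
        (1 / 2) ^ j * ‖1 - χ ((2 : ℕ) ^ j • g)‖ ^ 2) =
        1 / 4 * ∑ j ∈ range (Nat.log 2 m), (1 / 2) ^ j * F d ((2 : ℕ) ^ j • g) := by
      simp only [hF, mul_sum]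
      rw [sum_comm]
      refine sum_congr rfl fun j _ => sum_congr rfl fun χ _ => ?_
      ring
    have h3 : ∑ j ∈ range (Nat.log 2 m), (1 / 2 : ℝ) ^ j * F d ((2 : ℕ) ^ j • g) ≤
        ∑ j ∈ range (Nat.log 2 m), F d g := by
      refine sum_le_sum fun j _ => ?_
      have h4 := F_nsmul htri hdd (2 ^ j) g
      push_cast at h4
      have h5 : (0 : ℝ) < (1 / 2) ^ j := by positivity
      have h6 := mul_le_mul_of_nonneg_left h4 h5.le
      have h7 : (1 / 2 : ℝ) ^ j * (2 ^ j * F d g) = F d g := by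
        rw [← mul_assoc, ← mul_pow]
        norm_num
      linarith
    rw [sum_const, card_range, nsmul_eq_mul] at h3
    rw [h2] at h1
    linarith
  -- the lower bound of T
  have hT2 : ∀ g, F d g ≤ 4 * Real.pi * T g := by
    intro g
    rw [hF, hT]
    simp only [mul_sum]
    refine sum_le_sum fun χ _ => ?_
    have h1 := mul_le_mul_of_nonneg_left (trig_upper (k χ g)) (hB0 χ)
    rw [← hk1] at h1
    refine h1.trans (le_of_eq ?_)
    ring
  -- the cuts
  have hcut : Phi c * ∑ g, T g ≤ ∑ g, c g 0 * T g := by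
    have h1 := cuts h0 hc (fun χ : AddChar G ℂ => B χ / m)
      (fun χ => div_nonneg (hB0 χ) hm1.le) k hk2
    have h2 : ∀ g, T g = ∑ χ : AddChar G ℂ, B χ / m * (circ (k χ g) : ℝ) := by
      intro g
      rw [hT]
      refine sum_congr rfl fun χ _ => ?_
      ring
    simp only [h2]
    exact h1
  have hs1 : ∑ i, ∑ j, d i j = ∑ g, F d g := reidx d
  have hs2 : ∑ i, ∑ j, c i j * d i j = ∑ g, c g 0 * F d g := sum_c hc d
  rw [hs1, hs2]
  have e1 : Phi c * ∑ g, F d g ≤ 4 * Real.pi * (Phi c * ∑ g, T g) := by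
    have h1 : ∑ g, F d g ≤ 4 * Real.pi * ∑ g, T g := by
      rw [mul_sum]
      exact sum_le_sum fun g _ => hT2 g
    have h2 := mul_le_mul_of_nonneg_left h1 (phi_nonneg h0)
    linarith
  have e2 : ∑ g, c g 0 * T g ≤ 1 / 4 * (Nat.log 2 m : ℝ) * ∑ g, c g 0 * F d g := by
    rw [mul_sum]
    refine sum_le_sum fun g _ => ?_
    have h1 := mul_le_mul_of_nonneg_left (hT1 g) (h0 g 0)
    linarith
  have hpi := Real.pi_pos
  have e3 : 4 * Real.pi * (Phi c * ∑ g, T g) ≤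
      4 * Real.pi * (1 / 4 * (Nat.log 2 m : ℝ) * ∑ g, c g 0 * F d g) :=
    mul_le_mul_of_nonneg_left (hcut.trans e2) (by positivity)
  linarith

/-- exponent two: no loss -/
theorem main_two {c : G → G → ℝ} (h0 : ∀ i j, 0 ≤ c i j)
    (hc : ∀ t i j, c (i + t) (j + t) = c i j) (hm : ∀ g : G, 2 • g = 0)
    {d : G → G → ℝ} (hd : NegType d) :
    Phi c * ∑ i, ∑ j, d i j ≤ ∑ i, ∑ j, c i j * d i j := by
  obtain ⟨⟨x, hx⟩, htri⟩ := hd
  obtain ⟨B, hB0, hB⟩ := fourier x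
  choose k hk1 hk2 using fun χ : AddChar G ℂ => lift hm χ
  have hF : ∀ g, F d g = 4 * ∑ χ : AddChar G ℂ, B χ * (circ (k χ g) : ℝ) := by
    intro g
    have h1 : F d g = ∑ χ : AddChar G ℂ, B χ * ‖1 - χ g‖ ^ 2 := by
      rw [← hB g, F]
      exact sum_congr rfl fun t _ => hx _ _
    rw [h1, mul_sum]
    refine sum_congr rfl fun χ _ => ?_
    rw [hk1, trig_two]
    ring
  have h1 := cuts h0 hc B hB0 k hk2
  have hs1 : ∑ i, ∑ j, d i j = ∑ g, F d g := reidx d
  have hs2 : ∑ i, ∑ j, c i j * d i j = ∑ g, c g 0 * F d g := sum_c hc d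
  rw [hs1, hs2]
  have h2 : ∑ g, F d g = 4 * ∑ g, ∑ χ : AddChar G ℂ, B χ * (circ (k χ g) : ℝ) := by
    rw [mul_sum]
    exact sum_congr rfl fun g _ => hF g
  have h3 : ∑ g, c g 0 * F d g =
      4 * ∑ g, c g 0 * ∑ χ : AddChar G ℂ, B χ * (circ (k χ g) : ℝ) := by
    rw [mul_sum]
    refine sum_congr rfl fun g _ => ?_
    rw [hF g]
    ring
  rw [h2, h3]
  linarith

end group

end Mn

end Vale.Agent.P318
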